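import Vale.Agent.Lib.P205.H26.Hopf

/-!
# P205: every torus metric depending on one coordinate immerses isometrically in `ℝ⁴`

Every `C^∞` metric `E(r) dr² + 2 M(r) dr dθ + G(r) dθ²` on the torus `ℝ² / (L ℤ × 2π ℤ)` is
induced by a `C^∞` doubly periodic map into Euclidean four-space.  No hypothesis on the twist
`∫₀ᴸ M / G` and none on the curvature.
-/

namespace Vale.Agent.Results.P205.H26_InvariantTori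

open scoped ContDiff

/-- Let `E, M, G` be `C^∞` functions of period `L > 0` with `G > 0` and `E G - M² > 0`.  Then
there are `C^∞` functions `X₁, X₂, X₃, X₄` on `ℝ²`, of period `L` in the first variable and `2π`
in the second, such that `Φ = (X₁, X₂, X₃, X₄)` satisfies `⟨∂ᵣΦ, ∂ᵣΦ⟩ = E`, `⟨∂ᵣΦ, ∂_θΦ⟩ = M`,
`⟨∂_θΦ, ∂_θΦ⟩ = G` everywhere. -/
theorem result (E M G : ℝ → ℝ) (L : ℝ) (hL : 0 < L)
    (hE : ContDiff ℝ ∞ E) (hM : ContDiff ℝ ∞ M) (hG : ContDiff ℝ ∞ G)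
    (hEper : ∀ r, E (r + L) = E r) (hMper : ∀ r, M (r + L) = M r)
    (hGper : ∀ r, G (r + L) = G r)
    (hGpos : ∀ r, 0 < G r) (hdet : ∀ r, 0 < E r * G r - M r ^ 2) :
    ∃ X₁ X₂ X₃ X₄ : ℝ × ℝ → ℝ,
      ContDiff ℝ ∞ X₁ ∧ ContDiff ℝ ∞ X₂ ∧ ContDiff ℝ ∞ X₃ ∧ ContDiff ℝ ∞ X₄ ∧
      (∀ r θ : ℝ, X₁ (r + L, θ) = X₁ (r, θ) ∧ X₂ (r + L, θ) = X₂ (r, θ) ∧
        X₃ (r + L, θ) = X₃ (r, θ) ∧ X₄ (r + L, θ) = X₄ (r, θ)) ∧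
      (∀ r θ : ℝ, X₁ (r, θ + 2 * Real.pi) = X₁ (r, θ) ∧ X₂ (r, θ + 2 * Real.pi) = X₂ (r, θ) ∧
        X₃ (r, θ + 2 * Real.pi) = X₃ (r, θ) ∧ X₄ (r, θ + 2 * Real.pi) = X₄ (r, θ)) ∧
      ∀ x : ℝ × ℝ,
        (fderiv ℝ X₁ x (1, 0)) ^ 2 + (fderiv ℝ X₂ x (1, 0)) ^ 2 + (fderiv ℝ X₃ x (1, 0)) ^ 2
          + (fderiv ℝ X₄ x (1, 0)) ^ 2 = E x.1 ∧
        fderiv ℝ X₁ x (1, 0) * fderiv ℝ X₁ x (0, 1) + fderiv ℝ X₂ x (1, 0) * fderiv ℝ X₂ x (0, 1)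
          + fderiv ℝ X₃ x (1, 0) * fderiv ℝ X₃ x (0, 1)
          + fderiv ℝ X₄ x (1, 0) * fderiv ℝ X₄ x (0, 1) = M x.1 ∧
        (fderiv ℝ X₁ x (0, 1)) ^ 2 + (fderiv ℝ X₂ x (0, 1)) ^ 2 + (fderiv ℝ X₃ x (0, 1)) ^ 2
          + (fderiv ℝ X₄ x (0, 1)) ^ 2 = G x.1 :=
  Vale.Agent.Lib.P205.H26.exists_invariant_torus_immersion E M G L hL hE hM hG hEper hMper hGper
    hGpos hdet

end Vale.Agent.Results.P205.H26_InvariantTori
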