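import Vale.Agent.Lib.P205.H26.Torus

/-!
# P205: tori with a metric depending on one coordinate immerse isometrically in `ℝ⁴`

Every `C^∞` metric `E(r) dr² + 2 M(r) dr dθ + G(r) dθ²` on the torus `ℝ² / (L ℤ × 2π ℤ)` whose
twist `∫₀ᴸ M / G` is a rational multiple of `2π` (for instance every metric with `M = 0`) is
induced by a `C^∞` doubly periodic map into Euclidean four-space.
-/

namespace Vale.Agent.Results.P205.H26_OneVariableTori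

open scoped ContDiff

/-- Let `E, M, G` be `C^∞` functions of period `L > 0` with `G > 0` and `E G - M² > 0`, and
assume `(∫₀ᴸ M / G) * q = 2π p` for an integer `p` and a positive integer `q`.  Then there are
`C^∞` functions `X₁, X₂, X₃, X₄` on `ℝ²`, of period `L` in the first variable and `2π` in the
second, such that `Φ = (X₁, X₂, X₃, X₄)` satisfies `⟨∂ᵣΦ, ∂ᵣΦ⟩ = E`, `⟨∂ᵣΦ, ∂_θΦ⟩ = M`,
`⟨∂_θΦ, ∂_θΦ⟩ = G` everywhere. -/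
theorem result (E M G : ℝ → ℝ) (L : ℝ) (hL : 0 < L)
    (hE : ContDiff ℝ ∞ E) (hM : ContDiff ℝ ∞ M) (hG : ContDiff ℝ ∞ G)
    (hEper : ∀ r, E (r + L) = E r) (hMper : ∀ r, M (r + L) = M r)
    (hGper : ∀ r, G (r + L) = G r)
    (hGpos : ∀ r, 0 < G r) (hdet : ∀ r, 0 < E r * G r - M r ^ 2)
    (p : ℤ) (q : ℕ) (hq : 0 < q)
    (hol : (∫ r in (0 : ℝ)..L, M r / G r) * q = 2 * Real.pi * p) :
    ∃ X₁ X₂ X₃ X₄ : ℝ × ℝ → ℝ,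
      ContDiff ℝ ∞ X₁ ∧ ContDiff ℝ ∞ X₂ ∧ ContDiff ℝ ∞ X₃ ∧ ContDiff ℝ ∞ X₄ ∧
      (∀ r θ : ℝ, X₁ (r + L, θ) = X₁ (r, θ) ∧ X₂ (r + L, θ) = X₂ (r, θ) ∧
        X₃ (r + L, θ) = X₃ (r, θ) ∧ X₄ (r + L, θ) = X₄ (r, θ)) ∧
      (∀ r θ : ℝ, X₁ (r, θ + 2 * Real.pi) = X₁ (r, θ) ∧ X₂ (r, θ + 2 * Real.pi) = X₂ (r, θ) ∧
        X₃ (r, θ + 2 * Real.pi) = X₃ (r, θ) ∧ X₄ (r, θ + 2 * Real.pi) = X₄ (r, θ)) ∧
      ∀ x : ℝ × ℝ,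
        (fderiv ℝ X₁ x (1, 0)) ^ 2 + (fderiv ℝ X₂ x (1, 0)) ^ 2 + (fderiv ℝ X₃ x (1, 0)) ^ 2
          + (fderiv ℝ X₄ x (1, 0)) ^ 2 = E x.1 ∧
        fderiv ℝ X₁ x (1, 0) * fderiv ℝ X₁ x (0, 1) + fderiv ℝ X₂ x (1, 0) * fderiv ℝ X₂ x (0, 1)
          + fderiv ℝ X₃ x (1, 0) * fderiv ℝ X₃ x (0, 1)
          + fderiv ℝ X₄ x (1, 0) * fderiv ℝ X₄ x (0, 1) = M x.1 ∧
        (fderiv ℝ X₁ x (0, 1)) ^ 2 + (fderiv ℝ X₂ x (0, 1)) ^ 2 + (fderiv ℝ X₃ x (0, 1)) ^ 2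
          + (fderiv ℝ X₄ x (0, 1)) ^ 2 = G x.1 :=
  Vale.Agent.Lib.P205.H26.exists_torus_immersion E M G L hL hE hM hG hEper hMper hGper hGpos hdet
    p q hq hol

end Vale.Agent.Results.P205.H26_OneVariableTori
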